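import Vale.Agent.N196T.Main

/-!
# P196: an infinite finitely presented simple amenable group that is dense in `Sym(ℕ)`
-/

namespace Vale.Agent.Results.P196.A0HighlyTransitive

open Vale.Agent.N196T
open scoped Pointwise

/-- An infinite finitely presented simple amenable group with continuum many pairwise
non-conjugate highly transitive copies in `Sym(ℕ)`, continuum many maximal subgroups, no mixed
identity and infinite girth, and which is not uniformly amenable. -/
theorem result :
    ∃ (G : Type) (_ : Group G), Infinite G ∧ FinPresented G ∧ IsSimpleGroup G ∧ Foelner G ∧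
      -- (a)
      (∃ Γ : ℝ → Subgroup (Equiv.Perm ℕ), (∀ t, Nonempty (G ≃* Γ t) ∧ HighlyTransitive (Γ t)) ∧
        ∀ (s t : ℝ) (σ : Equiv.Perm ℕ), MulAut.conj σ • Γ s = Γ t → s = t) ∧
      -- (b)
      Cardinal.mk {H : Subgroup G // IsCoatom H} = Cardinal.continuum ∧
      -- (c), (d), (e)
      MixedIdentityFree G ∧ InfiniteGirth G ∧ ¬ UniformlyAmenable G :=
  main

end Vale.Agent.Results.P196.A0HighlyTransitive
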