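import Vale.Agent.N196.Main

/-!
# P196: an infinite finitely presented simple amenable quotient of the modular group
-/

namespace Vale.Agent.Results.P196.A0ModularQuotient

open Vale.Agent.P196

/-- There is an infinite finitely presented simple amenable group that is generated by an element
of order two and an element of order three, is a quotient of `PSL(2, ℤ)` by finitely many relators,
contains a free submonoid of rank two and has exponential growth. -/
theorem result :
    ∃ (G : Type) (_ : Group G), Infinite G ∧ Group.IsFinitelyPresented G ∧ IsSimpleGroup G ∧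
      IsAmenable G ∧
      ∃ x y : G, orderOf x = 2 ∧ orderOf y = 3 ∧ Subgroup.closure {x, y} = ⊤ ∧
        (∃ π : Matrix.ProjectiveSpecialLinearGroup (Fin 2) ℤ →* G, Function.Surjective π ∧
          π.ker.IsFinitelyNormallyGenerated) ∧
        (∃ φ : FreeMonoid Bool →* G, Function.Injective φ) ∧
        ∃ L : ℕ, ∀ n : ℕ, 2 ^ n ≤ Set.ncard {g : G | ∃ l : List G, l.length ≤ L * n ∧
          (∀ z ∈ l, z = x ∨ z = y) ∧ l.prod = g} :=
  Vale.Agent.N196.main

end Vale.Agent.Results.P196.A0ModularQuotient
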